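import Vale.Agent.P088.R2.H768.W.FarI
import Vale.Agent.P088.R2.H644.W.SymV
import Vale.Agent.P088.R2.H31.EP.Pack

/-!
# P088: the literal far weight as a family

For a family of data `a ↦ (q a, d a)` with the same profile: `φ = l(x) + l(y) + log S(r²)`,
`r = √(r²)`, `D_ij` of the slow exponential satisfy the hypotheses `Fc`, `Rk` of the far zone.
-/

open Set Filter
open scoped ContDiff Topology Matrix

noncomputable section

namespace Vale.Agent.P088.R2.H768.W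

/-- Weaker constants. -/
theorem IsSlow.mono {ε ε' N c₁ c₂ τ r₁ : ℝ} {Cb Cb' : ℕ → ℕ → ℝ} {u : E2 → ℝ}
    {D : ℕ → ℕ → E2 → ℝ} (s : IsSlow ε N c₁ τ r₁ Cb u D) (hε : ε ≤ ε') (hc : c₁ ≤ c₂)
    (hC : ∀ i j, Cb i j ≤ Cb' i j) (hN : 0 ≤ N) : IsSlow ε' N c₂ τ r₁ Cb' u D :=
  { s with
    G_u := fun z hz => (s.G_u z hz).trans (mul_le_mul_of_nonneg_right hε (Real.exp_pos _).le)
    psi := fun z hz => (s.psi z hz).trans (mul_le_mul_of_nonneg_right hε (sq_nonneg _))
    mu := fun z hz => (s.mu z hz).trans (mul_le_mul_of_nonneg_right hε (s.G_pos z hz).le)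
    om := fun z hz => (s.om z hz).trans (mul_le_mul_of_nonneg_right hε (s.g_pos z hz).le)
    s0 := fun z hz => (s.s0 z hz).trans (mul_le_mul_of_nonneg_right hε
      (div_nonneg (mul_nonneg (s.G_pos z hz).le (s.g_pos z hz).le) hz.le))
    hij := fun i j z hz h => (s.hij i j z hz h).trans (mul_le_mul_of_nonneg_right (hC i j)
      (div_nonneg (s.g_pos z hz).le hz.le))
    conv := fun z hz => (s.conv z hz).trans (mul_le_mul_of_nonneg_right
      (mul_le_mul_of_nonneg_right hε (div_nonneg hN hz.le))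
      (mul_nonneg (s.G_pos z hz).le (s.g_pos z hz).le))
    bd1 := fun i j z hz h => (s.bd1 i j z hz h).trans
      (mul_le_mul_of_nonneg_right (hC i j) (s.G_pos z hz).le)
    bd2 := fun i j z hz h => (s.bd2 i j z hz h).trans
      (mul_le_mul_of_nonneg_right (hC i j) (s.g_pos z hz).le)
    slow := fun z hz => (s.slow z hz).trans (mul_le_mul_of_nonneg_right hc
      (mul_nonneg (s.G_pos z hz).le (sq_nonneg _))) }

end Vale.Agent.P088.R2.H768.W

namespace Vale.Agent.P088.R2.H644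

/-- The profile `Ph` with its constants. -/
theorem PP.isProf {θ Li ε r₁ δ : ℝ} (h : PP θ Li ε r₁ δ) : ∃ R₁ : ℝ, IsProf θ Li ε r₁ R₁
    (Ph θ Li ε r₁ δ) (Ph1 θ Li ε r₁ δ) (Ph2 θ Li ε r₁ δ) (Lf θ Li ε r₁ δ) (ef θ Li ε r₁ δ) := by
  obtain ⟨R₁, hR, hR1⟩ := h.exists_R
  exact ⟨R₁,
    { sm := h.contDiff_Ph
      d2 := h.d2_Ph
      eq0 := fun s hs => h.Ph_eq hs
      eq1 := fun s hs => h.Ph1_eq hs
      eq2 := fun s hs => h.Ph2_eq hs
      pos := fun s hs => h.S_pos hs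
      pos1 := fun s hs => h.Ph1_pos hs
      smL := h.contDiffOn_Lf
      sme := h.contDiffOn_ef
      dS := fun r hr => h.hasDerivAt_S hr
      dL := fun r hr => h.hasDerivAt_Lf hr
      one := fun r hr => h.Ph1_L hr
      two := fun r hr => h.Ph2_L hr
      L_near := fun r hr h1 => h.Lf_eq hr h1
      e_near := fun r hr h1 => h.ef_eq hr h1
      e_nonneg := fun r hr => h.ef_nonneg hr
      e_le := fun r hr => h.ef_le hr
      Li_pos := h.L0
      Li_le := fun r => h.Li_le r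
      L_le := fun r hr => h.Lf_le hr
      anti := h.antitone_Lf
      r_lt := hR
      L_far := fun r hr => (hR1 r hr).1
      e_far := fun r hr => (hR1 r hr).2
      S_far := fun r hr => h.S_far (h.r0.trans hR) (fun r hr => (hR1 r hr).1) hr
      bd := fun k c₀ hc => h.exists_bound k hc }⟩

end Vale.Agent.P088.R2.H644

namespace Vale.Agent.P088.R2.H768.FarJ

open Vale.Agent.P088.LR Vale.Agent.P088.HY Vale.Agent.P088.R2.H464.Cu
open Vale.Agent.P088.R2.H657.W Vale.Agent.P088.R2.H644.Sy Vale.Agent.P088.R2.H644.Ch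
open Vale.Agent.P088.R2.H644.Ep Vale.Agent.P088.R2.H31.EP Vale.Agent.P088.R2.H768.FarI
open Vale.Agent.P088.R2.H768.W (IsSlow)

/-! ## The profile -/

theorem pp {e₁ : ℝ} (he : 0 < e₁) : H644.PP 2 Li e₁ rp dp where
  θ0 := two_pos
  L0 := by unfold Li; norm_num
  ε0 := he
  r0 := by unfold rp; norm_num
  δ0 := by unfold dp; norm_num
  le := by
    have h1 : Real.exp dp ≤ 2 := by
      have h2 : Real.exp dp ≤ Real.exp (1 / 2) := Real.exp_le_exp.2 (by unfold dp; norm_num)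
      have h3 : Real.exp (1 / 2) ^ 2 = Real.exp 1 := by
        rw [← Real.exp_nat_mul]; norm_num
      have h4 := Real.exp_one_lt_d9
      have h5 : Real.exp (1 / 2) ≤ 2 := by
        by_contra hc
        push Not at hc
        have : (2 : ℝ) ^ 2 < Real.exp (1 / 2) ^ 2 := by gcongr
        rw [h3] at this
        linarith
      exact h2.trans h5
    unfold Li
    linarith

theorem ls {e₁ c : ℝ} (he : 0 < e₁) (hc : 0 < c) : LS c (prS e₁) (H644.Ph1 2 Li e₁ rp dp) := by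
  obtain ⟨R₁, h⟩ := (pp he).isProf
  exact LS.prof h hc

/-! ## The functions -/

variable {n k : ℕ} {α : Type*}

/-- `φ = l(x) + l(y) + log S(r²)`. -/
def jφ (q : Cst) (d : Pk n) (z : VV n) : ℝ :=
  uf d.l z + Real.log (prS q.e₁ (r2 (gi d.s₁) z))

/-- `r`. -/
def jr (d : Pk n) (z : VV n) : ℝ := √(r2 (gi d.s₁) z)

/-- The exponent off the diagonal. -/
theorem wf_uf {O : α → Set (V n)} {U : α → Set (VV n)} {R : α → ℝ} {l : α → V n → ℝ}
    {g : α → MF n} {A c : ℝ} (h : Lg O U R l g A k) (hc : 0 ≤ c)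
    (h0 : ∀ a, ∀ z ∈ U a, c < r2 (g a) z) :
    Wf U (fun a => uf (l a)) (fun a => r2 (g a)) k c where
  op := h.oU
  su := h.sm_uf
  hρ := h0
  du := h.s_uf.mono_ρ (fun a _ _ => h.R0 a)
    (fun a z hz => Real.sqrt_pos.2 (hc.trans_lt (h0 a z hz))) (fun _ _ _ => zero_le_one) h.rR
  dρ := h.s_r2 hc h0

/-- **A family of data in the far zone.** -/
structure Fj (q : α → Cst) (d : α → Pk n) (e₁ A c : ℝ) (O : α → Set (V n))
    (U : α → Set (VV n)) (k : ℕ) : Prop where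
  e0 : 0 < e₁
  e : ∀ a, (q a).e₁ = e₁
  c0 : 0 < c
  sl : ∀ a, IsSlow (q a).es (q a).M₀ (q a).c' (q a).τ (q a).r₁ slB
    (H768.W.uu (q a).τ (q a).r₁) (q a).D
  M0 : ∀ a, 0 ≤ (q a).M₀
  s0 : ∀ a, 0 ≤ (q a).es
  s1 : ∀ a, (q a).es ≤ 1
  c1 : ∀ a, (q a).c' ≤ 1
  lg : Lg O U (fun a => (q a).R) (fun a => (d a).l) (fun a => gi (d a).s₁) A (k + 3)
  h0 : ∀ a, ∀ z ∈ U a, c < r2 (gi (d a).s₁) z

namespace Fj

variable {q : α → Cst} {d : α → Pk n} {e₁ A c : ℝ} {O : α → Set (V n)} {U : α → Set (VV n)}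

theorem r0 (h : Fj q d e₁ A c O U k) {a : α} {z : VV n} (hz : z ∈ U a) : 0 < jr (d a) z :=
  Real.sqrt_pos.2 (h.c0.trans (h.h0 a z hz))

theorem r_ge (h : Fj q d e₁ A c O U k) {a : α} {z : VV n} (hz : z ∈ U a) : √c < jr (d a) z :=
  Real.sqrt_lt_sqrt h.c0.le (h.h0 a z hz)

theorem sl' (h : Fj q d e₁ A c O U k) (a : α) :
    IsSlow 1 (q a).M₀ 1 (q a).τ (q a).r₁ (fun i j => |slB i j|)
      (H768.W.uu (q a).τ (q a).r₁) (q a).D :=
  (h.sl a).mono (h.s1 a) (h.c1 a) (fun _ _ => le_abs_self _) (h.M0 a)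

/-- The functions `φ`, `r` are symbols. -/
theorem ph (h : Fj q d e₁ A c O U k) :
    (∀ a, ContDiffOn ℝ ∞ (jφ (q a) (d a)) (U a)) ∧
    Sf U (fun a => jr (d a)) (fun _ _ => 1) (k + 3) (fun a => fderiv ℝ (jφ (q a) (d a))) ∧
    Sf U (fun a => jr (d a)) (fun a => jr (d a)) (k + 4) (fun a => jr (d a)) := by
  have w := wf_uf h.lg h.c0.le h.h0
  have hS := ls h.e0 h.c0
  have e : ∀ a, jφ (q a) (d a) =
      fg (prS e₁) (fun a => uf (d a).l) (fun a => r2 (gi (d a).s₁)) a := fun a => by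
    funext z
    unfold jφ fg
    rw [h.e a]
  refine ⟨fun a => ?_, ?_, w.sqrt h.c0⟩
  · rw [e a]
    exact hS.sfg w a
  · have e' : (fun a => fderiv ℝ (jφ (q a) (d a))) = fun a =>
        fderiv ℝ (fg (prS e₁) (fun a => uf (d a).l) (fun a => r2 (gi (d a).s₁)) a) := by
      funext a
      rw [e a]
    rw [e']
    exact hS.dfg w

/-- **The hypotheses of the chain rule.** -/
theorem fc (h : Fj q d e₁ A c O U k) :
    Fc U (fun a => jφ (q a) (d a)) (fun a => jr (d a))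
      (gD (fun a => (q a).D) (fun a => jφ (q a) (d a)) (fun a => jr (d a)) 1 0)
      (cD fun a => (q a).D) k :=
  fc_of h.sl' h.lg.oU ⟨√c, Real.sqrt_pos.2 h.c0, fun _ _ hz => (h.r_ge hz).le⟩ h.ph.1 h.ph.2.1
    h.ph.2.2

/-- **The rank one structure.** -/
theorem rk (h : Fj q d e₁ A c O U k) :
    Rk U (fun a => jφ (q a) (d a)) (fun a => jr (d a))
      (gD (fun a => (q a).D) (fun a => jφ (q a) (d a)) (fun a => jr (d a)) 1 0)
      (cD fun a => (q a).D)
      (gD (fun a => (q a).D) (fun a => jφ (q a) (d a)) (fun a => jr (d a)) 2 0)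
      (gom (fun a => (q a).D) (fun a => jφ (q a) (d a)) fun a => jr (d a))
      (glam (fun a => (q a).D) (fun a => jφ (q a) (d a)) fun a => jr (d a))
      (glam2 (fun a => (q a).D) (fun a => jφ (q a) (d a)) fun a => jr (d a)) :=
  rk_of zero_le_one (fun _ _ => abs_nonneg _) h.sl' fun _ _ hz => h.r0 hz

end Fj

end Vale.Agent.P088.R2.H768.FarJ
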